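import Vale.Agent.P129BF.Ult
import Vale.Agent.P129BZ.Zorn

/-!
# Free sequences from an internal countably complete free ultrafilter
-/

set_option linter.unusedSectionVars false
set_option linter.unusedVariables false

namespace Vale.Agent.P129B

open Function

universe v

variable {N : Type v} [ZM N] {K : Type*} [Coded N K] [Tot N K]

namespace Fr

section

variable {α β : Type*} [Coded N α] [Coded N β]

@[fun_prop] theorem defF_lt {f g : α → NN N} (hf : DefF N f) (hg : DefF N g) :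
    DefF N (fun a => f a < g a) := hf.nnVal.memN hg.nnVal

@[fun_prop] theorem defF_le {f g : α → NN N} (hf : DefF N f) (hg : DefF N g) :
    DefF N (fun a => f a ≤ g a) := (defF_lt hg hf).not.congrP fun _ _ => not_lt

theorem lt_succ (n : NN N) : n < n.succ := NN.lt_succ'.2 le_rfl

/-- Recursion on the natural numbers of the model. -/
theorem exists_rec (z : β) [Intl N z] {s : NN N → β → β}
    (hs : DefF N (fun p : NN N × β => s p.1 p.2)) :
    ∃ G : NN N → β, Intl N G ∧ G 0 = z ∧ ∀ k, G k.succ = s k (G k) := by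
  have hs' : ∀ {γ : Type _} [Coded N γ] {f : γ → NN N} {g : γ → β}, DefF N f → DefF N g →
      DefF N (fun a => s (f a) (g a)) := fun hf hg => hs.comp2 hf hg
  let Q : NN N → (NN N → β) → Prop := fun n t => t 0 = z ∧ ∀ k, k < n → t k.succ = s k (t k)
  have hQ : DefF N (fun p : NN N × (NN N → β) => Q p.1 p.2) := by
    refine DefF.and (by fun_prop) (DefF.allT (P := fun (p : NN N × (NN N → β)) (k : NN N) =>
      k < p.1 → p.2 k.succ = s k (p.2 k)) (DefF.imp (by fun_prop) (DefF.eq ?_ (hs' ?_ ?_))))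
    all_goals fun_prop
  have ex : ∀ n, ∃ t, Intl N t ∧ Q n t := by
    refine NN.ind' (DefF.ex hQ) ⟨fun _ => z, inferInstance, rfl,
      fun k hk => absurd hk (NN.not_lt_zero' k)⟩ ?_
    rintro n ⟨t, ht, h0, h1⟩
    have := hs.intl (n, t n)
    refine ⟨update t n.succ (s n (t n)), inferInstance, ?_, fun k hk => ?_⟩
    · rw [update_of_ne (NN.succ_ne_zero' n).symm, h0]
    · rw [update_of_ne hk.ne]
      rcases (NN.lt_succ'.1 hk).lt_or_eq with h | rfl
      · rw [update_of_ne (fun e => h.ne (NN.succ_inj' e)), h1 k h]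
      · rw [update_self]
  have un : ∀ t t', Intl N t → Intl N t' → ∀ n n', Q n t → Q n' t' → ∀ k, k ≤ n → k ≤ n' →
      t k = t' k := by
    intro t t' ht ht' n n' h h'
    refine NN.ind' (by fun_prop) (fun _ _ => h.1.trans h'.1.symm) fun k ih h1 h2 => ?_
    have h3 := NN.succ_le'.1 h1
    have h4 := NN.succ_le'.1 h2
    rw [h.2 k h3, h'.2 k h4, ih h3.le h4.le]
  choose t ht hQt using ex
  refine ⟨fun n => t n n, DefF.toIntl (defF_of_rel
    (R := fun (n : NN N) (b : β) => ∃ u : NN N → β, Intl N u ∧ Q n u ∧ u n = b)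
    (fun n _ => have := ht n; inferInstance) ?_ fun n b _ _ => ⟨?_, ?_⟩), (hQt 0).1, fun k => ?_⟩
  · refine DefF.ex (P := fun (p : NN N × β) (u : NN N → β) => Q p.1 u ∧ u p.1 = p.2)
      (DefF.and (hQ.comp2 (F := Q) ?_ ?_) ?_)
    all_goals fun_prop
  · rintro ⟨u, hu, h1, rfl⟩
    exact un _ _ (ht n) hu n n (hQt n) h1 n le_rfl le_rfl
  · rintro rfl
    exact ⟨t n, ht n, hQt n, rfl⟩
  · beta_reduce
    rw [(hQt k.succ).2 k (lt_succ k),
      un _ _ (ht _) (ht _) _ _ (hQt k.succ) (hQt k) k (lt_succ k).le le_rfl]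

end

variable (N) in
/-- For almost all values at `k`, ..., at the predecessor of `b`, the changed `g` lies in `A`. -/
def AE (U : Set (Set K)) (A : Set (NN N → K)) (b k : NN N) (g : NN N → K) : Prop :=
  ∃ W : Set (NN N × (NN N → K)), Intl N W ∧ (k, g) ∈ W ∧ ∀ p ∈ W,
    (p.1 < b → {x | (p.1.succ, update p.2 p.1 x) ∈ W} ∈ U) ∧ (b ≤ p.1 → p.2 ∈ A)

variable {U : Set (Set K)}

@[fun_prop] theorem defF_AE [Intl N U] {α : Type*} [Coded N α] {A : α → Set (NN N → K)}
    {b k : α → NN N} {g : α → NN N → K} (hA : DefF N A) (hb : DefF N b) (hk : DefF N k)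
    (hg : DefF N g) : DefF N (fun a => AE N U (A a) (b a) (k a) (g a)) := by
  have h1 : DefF N (fun q : Set (NN N × (NN N → K)) × (NN N × (NN N → K)) =>
      {x | (q.2.1.succ, update q.2.2 q.2.1 x) ∈ q.1}) := DefF.setOfT (by fun_prop)
  refine DefF.ex (P := fun (a : α) (W : Set (NN N × (NN N → K))) => (k a, g a) ∈ W ∧ ∀ p ∈ W,
    (p.1 < b a → {x | (p.1.succ, update p.2 p.1 x) ∈ W} ∈ U) ∧ (b a ≤ p.1 → p.2 ∈ A a))
    (DefF.and (by fun_prop) (DefF.ball (by fun_prop) (DefF.and (DefF.imp (by fun_prop)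
      (DefF.mem (h1.comp2 (F := fun (W : Set (NN N × (NN N → K))) (p : NN N × (NN N → K)) =>
        {x | (p.1.succ, update p.2 p.1 x) ∈ W}) (by fun_prop) (by fun_prop)) (by fun_prop)))
      (by fun_prop))))

/-- Coinduction. -/
theorem ae_co (hU : IUlt N U) {A : Set (NN N → K)} {b : NN N} {P : NN N → (NN N → K) → Prop}
    (hP : DefF N (fun p : NN N × (NN N → K) => P p.1 p.2))
    (h : ∀ k g, Intl N g → P k g → (k < b → {x | P k.succ (update g k x)} ∈ U) ∧ (b ≤ k → g ∈ A))
    {k : NN N} {g : NN N → K} (hg : Intl N g) (h0 : P k g) : AE N U A b k g := by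
  refine ⟨{p | Intl N p ∧ P p.1 p.2}, intl_setOf hP, ⟨inferInstance, h0⟩, ?_⟩
  rintro ⟨k, g⟩ ⟨h1, h2⟩
  have h3 : Intl N g := (intl_prod.1 h1).2
  refine ⟨fun hk => ?_, (h k g h3 h2).2⟩
  have := (h k g h3 h2).1 hk
  convert this using 1
  exact Set.ext fun x => ⟨fun H => H.2, fun H => ⟨intl_mk _ (update g k x), H⟩⟩

theorem AE.intl {A : Set (NN N → K)} {b k : NN N} {g : NN N → K} (h : AE N U A b k g) :
    Intl N g := by
  obtain ⟨W, hW, h1, -⟩ := h
  exact (intl_prod.1 (hW.of_mem h1)).2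

theorem AE.step (hU : IUlt N U) {A : Set (NN N → K)} [Intl N A] {b k : NN N} {g : NN N → K}
    (h : AE N U A b k g) (hk : k < b) : {x | AE N U A b k.succ (update g k x)} ∈ U := by
  have := hU.intl
  have := h.intl
  obtain ⟨W, hW, h1, h2⟩ := h
  exact hU.mono ((h2 _ h1).1 hk) (by fun_prop) fun x hx => ⟨W, hW, hx, h2⟩

theorem AE.fin {A : Set (NN N → K)} {b k : NN N} {g : NN N → K} (h : AE N U A b k g)
    (hk : b ≤ k) : g ∈ A := by
  obtain ⟨W, -, h1, h2⟩ := h
  exact (h2 _ h1).2 hk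

theorem ae_mk (hU : IUlt N U) {A : Set (NN N → K)} [Intl N A] {b k : NN N} {g : NN N → K}
    (hg : Intl N g) (h1 : k < b → {x | AE N U A b k.succ (update g k x)} ∈ U)
    (h2 : b ≤ k → g ∈ A) : AE N U A b k g := by
  have := hU.intl
  refine ae_co hU (P := fun k' g' => (k' = k ∧ g' = g) ∨ AE N U A b k' g') (by fun_prop)
    ?_ hg (Or.inl ⟨rfl, rfl⟩)
  rintro k' g' hg' (⟨rfl, rfl⟩ | h)
  · exact ⟨fun hk => hU.mono (h1 hk) (by fun_prop) fun x hx => Or.inr hx, h2⟩
  · exact ⟨fun hk => hU.mono (h.step hU hk) (by fun_prop) fun x hx => Or.inr hx, h.fin⟩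

theorem ae_not (hU : IUlt N U) {A B : Set (NN N → K)} [Intl N A]
    (hB : ∀ g, Intl N g → g ∉ A → g ∈ B) {b k : NN N} {g : NN N → K} (hg : Intl N g)
    (h : ¬ AE N U A b k g) : AE N U B b k g := by
  have := hU.intl
  refine ae_co hU (P := fun k g => ¬ AE N U A b k g) (by fun_prop) (fun k g hg h => ⟨fun hk =>
    hU.not (by fun_prop) fun h1 => h (ae_mk hU hg (fun _ => h1) fun h2 => absurd hk (not_lt.2 h2)),
    fun hk => hB g hg fun h1 => h (ae_mk hU hg (fun h2 => absurd hk (not_le.2 h2)) fun _ => h1)⟩)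
    hg h

theorem AE.exists_two (hU : IUlt N U) {A B : Set (NN N → K)} [Intl N A] [Intl N B] {b k : NN N}
    {g : NN N → K} (h : AE N U A b k g) (h' : AE N U B b k g) : ∃ g', g' ∈ A ∧ g' ∈ B := by
  have := hU.intl
  by_contra hc
  have key : ∀ m : NN N, ∃ p : NN N × (NN N → K), Intl N p ∧ m ≤ p.1 ∧ AE N U A b p.1 p.2 ∧
      AE N U B b p.1 p.2 := by
    have := h.intl
    refine NN.ind' (by fun_prop) ⟨(k, g), inferInstance, NN.zero_le' _, h, h'⟩ ?_
    rintro m ⟨⟨k, g⟩, hp, h1, h2, h3⟩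
    rcases lt_or_ge k b with hk | hk
    · obtain ⟨x, hx1, hx2⟩ := hU.nonempty (hU.and (h2.step hU hk) (h3.step hU hk))
      have := h2.intl
      exact ⟨(k.succ, update g k x), inferInstance, NN.succ_le'.2 (NN.lt_succ'.2 h1), hx1, hx2⟩
    · exact absurd ⟨g, h2.fin hk, h3.fin hk⟩ hc
  obtain ⟨p, -, h1, h2, h3⟩ := key b
  exact hc ⟨_, h2.fin h1, h3.fin h1⟩

/-- One requirement can be met. -/
theorem ae_one (hU : IUlt N U) {e : (NN N → K) → K} (he : DefF N e) {j b : NN N} (hj : j < b)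
    (hd : ∀ g x, Intl N g → e (update g j x) = e g) {g : NN N → K} (hg : Intl N g) :
    AE N U {g | Intl N g ∧ e g ≠ g j} b 0 g := by
  have := hU.intl
  have hA : Intl N {g : NN N → K | Intl N g ∧ e g ≠ g j} := intl_setOf (by fun_prop)
  refine ae_co hU (P := fun k g => k ≤ j ∨ AE N U {g | Intl N g ∧ e g ≠ g j} b k g) (by fun_prop)
    ?_ hg (Or.inl (NN.zero_le' j))
  rintro k g hg (h | h)
  swap
  · exact ⟨fun hk => hU.mono (h.step hU hk) (by fun_prop) fun x hx => Or.inr hx, h.fin⟩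
  refine ⟨fun _ => ?_, fun hk => absurd (hk.trans h) (not_le.2 hj)⟩
  rcases h.lt_or_eq with h | rfl
  · exact hU.all fun x => Or.inl (NN.succ_le'.2 h)
  by_contra hc
  have hB : Intl N {g : NN N → K | Intl N g ∧ e g = g k} := intl_setOf (by fun_prop)
  have key : ∀ x, ¬ (k.succ ≤ k ∨ AE N U {g | Intl N g ∧ e g ≠ g k} b k.succ (update g k x)) →
      AE N U {g | Intl N g ∧ e g = x} b k.succ g := by
    intro x hx
    have h1 : AE N U {g | Intl N g ∧ e g = g k} b k.succ (update g k x) :=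
      ae_not hU (A := {g | Intl N g ∧ e g ≠ g k})
        (fun g hg h => And.intro hg (by_contra fun h' => h ⟨hg, h'⟩)) inferInstance
        fun h => hx (Or.inr h)
    refine ae_co hU (P := fun l g => k < l ∧
      AE N U {g | Intl N g ∧ e g = g k} b l (update g k x)) (by fun_prop) ?_ hg ⟨lt_succ k, h1⟩
    rintro l g hg ⟨h2, h3⟩
    refine ⟨fun hl => hU.mono (h3.step hU hl) (by fun_prop) fun y hy =>
      ⟨h2.trans (lt_succ l), ?_⟩, fun hl => ⟨hg, ?_⟩⟩
    · rwa [update_comm h2.ne] at hy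
    · have := (h3.fin hl).2
      rwa [hd g x hg, update_self] at this
  obtain ⟨x, hx, y, hy, hxy⟩ := hU.two (hU.not (by fun_prop) hc)
  have hx' : Intl N {g : NN N → K | Intl N g ∧ e g = x} := intl_setOf (by fun_prop)
  have hy' : Intl N {g : NN N → K | Intl N g ∧ e g = y} := intl_setOf (by fun_prop)
  obtain ⟨g', h1, h2⟩ := (key x hx).exists_two hU (key y hy)
  exact hxy (h1.2.symm.trans h2.2)

end Fr

open Fr in
/-- **Free sequences**, for a definable class of requirements under whose intersections `U` is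
closed. -/
theorem IUlt.exists_free_gen {U : Set (Set K)} (hU : IUlt N U) {ι : Type*} [Coded N ι]
    {D : ι → Prop} (hD : DefF N D)
    (hι : ∀ P : ι → K → Prop, DefF N (fun p : ι × K => P p.1 p.2) →
      (∀ t, Intl N t → D t → {x | P t x} ∈ U) → {x | ∀ t, Intl N t → D t → P t x} ∈ U)
    {j b : ι → NN N} (hj : DefF N j) (hb : DefF N b) {e : ι → (NN N → K) → K}
    (he : DefF N (fun p : ι × (NN N → K) => e p.1 p.2))
    (hd : ∀ t g g', Intl N t → D t → Intl N g → Intl N g' →
      (∀ k, k < b t → k ≠ j t → g k = g' k) → e t g = e t g') :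
    ∃ g : NN N → K, Intl N g ∧ ∀ t, Intl N t → D t → e t g ≠ g (j t) := by
  have := hU.intl
  obtain ⟨x₀, -⟩ := hU.nonempty hU.univ
  have : Nonempty K := ⟨x₀⟩
  let A : ι → Set (NN N → K) := fun t => {g | Intl N g ∧ e t g ≠ g (j t)}
  have hA : DefF N A := DefF.setOf (DefF.ne he (by fun_prop))
  let B : ι → NN N := fun t => if j t < b t then b t else (j t).succ
  have hB : DefF N B := by fun_prop
  have hB1 : ∀ t, j t < B t := fun t => by
    simp only [B]; split_ifs with h; exacts [h, lt_succ _]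
  have hB2 : ∀ t, b t ≤ B t := fun t => by
    simp only [B]; split_ifs with h; exacts [le_rfl, (not_lt.1 h).trans (lt_succ _).le]
  have hdA : ∀ t g g', Intl N t → D t → Intl N g' → (∀ k, k < B t → g k = g' k) → g ∈ A t →
      g' ∈ A t := by
    intro t g g' ht hDt hg' h1 h2
    refine ⟨hg', ?_⟩
    rw [← h1 _ (hB1 t), ← hd _ g g' ht hDt h2.1 hg' fun k hk _ => h1 k (hk.trans_le (hB2 t))]
    exact h2.2
  let Inv : NN N → (NN N → K) → Prop := fun k g => ∀ t, Intl N t → D t → AE N U (A t) (B t) k g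
  have hInv : DefF N (fun p : NN N × (NN N → K) => Inv p.1 p.2) := by
    simp only [Inv]; fun_prop
  have step : ∀ k g, Intl N g → Inv k g → ∃ x, Inv k.succ (update g k x) := by
    intro k g hg h
    refine hU.nonempty (hι (fun t x => AE N U (A t) (B t) k.succ (update g k x)) (by fun_prop)
      fun t ht hDt => ?_)
    rcases lt_or_ge k (B t) with hk | hk
    · have := hA.intl t
      exact (h t ht hDt).step hU hk
    · have := hA.intl t
      refine hU.all fun x => ae_mk hU inferInstance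
        (fun h1 => absurd ((lt_succ k).trans h1) (not_lt.2 hk)) fun _ => ?_
      exact hdA t g _ ht hDt inferInstance
        (fun l hl => (update_of_ne (hl.trans_le hk).ne _ _).symm) ((h t ht hDt).fin hk)
  obtain ⟨X, hX, hX'⟩ := Zo.choice_of_set (N := N) (α := NN N × (NN N → K)) (Set.univ : Set K)
    (R := fun p x => Inv p.1 p.2 → Inv p.1.succ (update p.2 p.1 x))
    (DefF.imp (hInv.comp2 (F := Inv) (by fun_prop) (by fun_prop))
      (hInv.comp2 (F := Inv) (by fun_prop) (by fun_prop))) fun p hp => by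
      by_cases h : Inv p.1 p.2
      · obtain ⟨x, hx⟩ := step _ _ inferInstance h
        exact ⟨x, trivial, fun _ => hx⟩
      · exact ⟨x₀, trivial, fun h' => absurd h' h⟩
  obtain ⟨G, hG, hG0, hGs⟩ := exists_rec (N := N) (fun _ : NN N => x₀)
    (s := fun k g => update g k (X (k, g))) (by fun_prop)
  have hG2 := DefF.ofIntl2 (N := N) G
  have inv : ∀ k, Inv k (G k) := by
    refine NN.ind' (hInv.comp2 (F := Inv) DefF.id (DefF.ofIntl G)) (fun t ht hDt => ?_)
      fun k ih => ?_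
    · exact ae_one hU (he.comp2 (F := e) (DefF.const t) DefF.id) (hB1 t)
        (fun g x hg => hd _ _ _ ht hDt inferInstance hg fun k _ hk => update_of_ne hk _ _)
        inferInstance
    · rw [hGs]
      exact (hX' (k, G k) inferInstance).2 ih
  have stab : ∀ j k, j < k → G k j = G j.succ j := by
    intro j
    refine NN.ind' (by fun_prop) (fun h => absurd h (NN.not_lt_zero' j)) fun k ih h => ?_
    rcases (NN.lt_succ'.1 h).lt_or_eq with h1 | rfl
    · rw [hGs k, update_of_ne h1.ne, ih h1]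
    · rfl
  have hg : Intl N (fun j : NN N => G j.succ j) := DefF.toIntl (by fun_prop)
  exact ⟨_, hg, fun t ht hDt => (hdA t _ _ ht hDt hg (fun k hk => stab k _ hk)
    ((inv _ t ht hDt).fin le_rfl)).2⟩

/-- Free sequences, requirements indexed by triples of natural numbers. -/
theorem IUlt.exists_free {U : Set (Set K)} (hU : IUlt N U)
    {e : NN N → NN N → NN N → (NN N → K) → K}
    (he : DefF N (fun p : (NN N × NN N × NN N) × (NN N → K) => e p.1.1 p.1.2.1 p.1.2.2 p.2))
    (hd : ∀ j b i g g', Intl N g → Intl N g' → (∀ k, k < b → k ≠ j → g k = g' k) →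
      e j b i g = e j b i g') :
    ∃ g : NN N → K, Intl N g ∧ ∀ j b i, e j b i g ≠ g j := by
  have := hU.intl
  refine (hU.exists_free_gen (ι := NN N × NN N × NN N) (D := fun _ => True)
    (by fun_prop) (fun P hP h => ?_) (j := fun t => t.1) (b := fun t => t.2.1) (by fun_prop)
    (by fun_prop) (e := fun t g => e t.1 t.2.1 t.2.2 g) he
    fun t g g' _ _ hg hg' => hd _ _ _ g g' hg hg').imp
      fun g h => ⟨h.1, fun j b i => h.2 (j, b, i) inferInstance trivial⟩
  have h2 : {x | ∀ j b i, P (j, b, i) x} ∈ U :=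
    hU.forall_nn (by fun_prop) fun j => hU.forall_nn (by fun_prop) fun b =>
      hU.forall_nn (by fun_prop) fun i => h (j, b, i) inferInstance trivial
  exact hU.mono h2 (by fun_prop) fun x hx t _ _ => hx t.1 t.2.1 t.2.2

/-- `U` is closed under intersections indexed by the finite modifications of a sequence. -/
theorem IUlt.forall_modif {U : Set (Set K)} (hU : IUlt N U) {β : Type*} [Coded N β] [Tot N β]
    (hβ : ∀ P : β → K → Prop, DefF N (fun p : β × K => P p.1 p.2) →
      (∀ t, {x | P t x} ∈ U) → {x | ∀ t, P t x} ∈ U) (c : β)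
    {P : (NN N → β) → K → Prop} (hP : DefF N (fun p : (NN N → β) × K => P p.1 p.2))
    (h : ∀ t, Intl N t → (∃ b, ∀ k, b ≤ k → t k = c) → {x | P t x} ∈ U) :
    {x | ∀ t, Intl N t → (∃ b, ∀ k, b ≤ k → t k = c) → P t x} ∈ U := by
  have := hU.intl
  have hQ : DefF N (fun p : (NN N × (NN N → β)) × K => ∀ t, Intl N t →
      (∀ k, p.1.1 ≤ k → t k = p.1.2 k) → P t p.2) :=
    DefF.all (P := fun (p : (NN N × (NN N → β)) × K) (t : NN N → β) =>
      (∀ k, p.1.1 ≤ k → t k = p.1.2 k) → P t p.2)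
      (DefF.imp (by fun_prop) (hP.comp2 (F := P) (by fun_prop) (by fun_prop)))
  have key : ∀ b : NN N, ∀ s : NN N → β, Intl N s → (∃ b, ∀ k, b ≤ k → s k = c) →
      {x | ∀ t, Intl N t → (∀ k, b ≤ k → t k = s k) → P t x} ∈ U := by
    refine NN.ind' (DefF.all (P := fun (b : NN N) (s : NN N → β) =>
      (∃ b, ∀ k, b ≤ k → s k = c) → {x | ∀ t, Intl N t → (∀ k, b ≤ k → t k = s k) → P t x} ∈ U)
      (DefF.imp (by fun_prop) (DefF.mem (DefF.setOfT hQ) (DefF.const U))))
      (fun s hs h1 => ?_) fun b ih s hs ⟨b', h1⟩ => ?_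
    · refine hU.mono (h s hs h1) (hQ.comp ((DefF.const (0, s)).pair DefF.id)) fun x hx t _ ht => ?_
      rwa [show t = s from funext fun k => ht k (NN.zero_le' k)]
    · have h2 := hβ (fun m x => ∀ t, Intl N t → (∀ k, b ≤ k → t k = update s b m k) → P t x)
        (hQ.comp (g := fun p : β × K => ((b, update s b p.1), p.2)) (by fun_prop)) fun m =>
          ih _ inferInstance ⟨max b' b.succ, fun k hk => by
            rw [update_of_ne (NN.succ_le'.1 ((le_max_right _ _).trans hk)).ne',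
              h1 k ((le_max_left _ _).trans hk)]⟩
      refine hU.mono h2 (hQ.comp ((DefF.const (b.succ, s)).pair DefF.id))
        fun x hx t ht ht' => hx (t b) t ht fun k hk => ?_
      rcases hk.lt_or_eq with h3 | rfl
      · rw [update_of_ne h3.ne', ht' k (NN.succ_le'.2 h3)]
      · rw [update_self]
  have h3 := hU.forall_nn (P := fun b x => ∀ t, Intl N t → (∀ k, b ≤ k → t k = c) → P t x)
    (hQ.comp (g := fun p : NN N × K => ((p.1, fun _ => c), p.2)) (by fun_prop))
    fun b => key b (fun _ => c) inferInstance ⟨0, fun _ _ => rfl⟩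
  refine hU.mono h3 (DefF.all (P := fun (x : K) (t : NN N → β) =>
    (∃ b, ∀ k, b ≤ k → t k = c) → P t x)
    (DefF.imp (by fun_prop) (hP.comp2 (F := P) (by fun_prop) (by fun_prop))))
    fun x hx t ht ⟨b, hb⟩ => hx b t ht hb

theorem IUlt.forall_prop {U : Set (Set K)} (hU : IUlt N U) (P : Prop → K → Prop)
    (hP : DefF N (fun p : Prop × K => P p.1 p.2)) (h : ∀ t, {x | P t x} ∈ U) :
    {x | ∀ t, P t x} ∈ U :=
  hU.mono (hU.and (h True) (h False)) (by fun_prop) fun x hx t => by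
    by_cases ht : t
    · rw [eq_true ht]; exact hx.1
    · rw [eq_false ht]; exact hx.2

/-- `U` is closed under intersections indexed by the bounded internal sets of numbers. -/
theorem IUlt.forall_bdd {U : Set (Set K)} (hU : IUlt N U) {P : Set (NN N) → K → Prop}
    (hP : DefF N (fun p : Set (NN N) × K => P p.1 p.2))
    (h : ∀ T, Intl N T → (∃ b, ∀ i ∈ T, i < b) → {x | P T x} ∈ U) :
    {x | ∀ T, Intl N T → (∃ b, ∀ i ∈ T, i < b) → P T x} ∈ U := by
  have h1 : DefF N (fun t : NN N → Prop => {i | t i}) := DefF.setOfT (by fun_prop)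
  have h2 := hU.forall_modif hU.forall_prop False (P := fun t x => P {i | t i} x)
    (hP.comp2 (F := P) (h1.comp DefF.id.fst) DefF.id.snd) fun t ht ⟨b, hb⟩ =>
      h _ (h1.intl t) ⟨b, fun i hi => not_le.1 fun h3 => (hb i h3 ▸ hi : False)⟩
  refine hU.mono h2 (DefF.all (P := fun (x : K) (T : Set (NN N)) => (∃ b, ∀ i ∈ T, i < b) → P T x)
    (DefF.imp (by fun_prop) (hP.comp2 (F := P) (by fun_prop) (by fun_prop))))
    fun x hx T hT ⟨b, hb⟩ => hx (fun i => i ∈ T) (DefF.toIntl (by fun_prop))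
      ⟨b, fun k hk => eq_false fun h3 => absurd (hb k h3) (not_lt.2 hk)⟩

/-- **Free sequences** for a map from sets to countable sets. -/
theorem IUlt.exists_free_set {U : Set (Set K)} (hU : IUlt N U) {F : Set K → NN N → K}
    (hF : DefF N (fun p : Set K × NN N => F p.1 p.2)) :
    ∃ g : NN N → K, Intl N g ∧ ∀ T : Set (NN N), Intl N T → (∃ b, ∀ i ∈ T, i < b) →
      ∀ j ∉ T, ∀ i, g j ≠ F (g '' T) i := by
  have := hU.intl
  have him : DefF N (fun p : (NN N → K) × Set (NN N) => p.1 '' p.2) :=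
    defF_set (fun p _ => intl_image (DefF.ofIntl p.1) p.2) (by
      have : DefF N (fun q : ((NN N → K) × Set (NN N)) × K => ∃ i ∈ q.1.2, q.1.1 i = q.2) := by
        fun_prop
      exact this)
  refine (hU.exists_free_gen (ι := Set (NN N) × NN N × NN N × NN N)
    (D := fun t => (∀ i ∈ t.1, i < t.2.2.1) ∧ ¬ t.2.1 ∈ t.1) (by fun_prop) (fun P hP h => ?_)
    (j := fun t => t.2.1) (b := fun t => t.2.2.1) (by fun_prop) (by fun_prop)
    (e := fun t g => F (g '' t.1) t.2.2.2)
    (hF.comp2 (F := F) (him.comp2 (F := fun (g : NN N → K) (T : Set (NN N)) => g '' T)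
      (by fun_prop) (by fun_prop)) (by fun_prop))
    fun t g g' _ hD _ _ h => by
      rw [Set.image_congr fun k hk => h k (hD.1 k hk) fun e => hD.2 (e ▸ hk)]).imp
    fun g h => ⟨h.1, fun T hT ⟨b, hb⟩ j hj i => (h.2 (T, j, b, i) inferInstance ⟨hb, hj⟩).symm⟩
  have h2 : {x | ∀ T, Intl N T → (∃ b, ∀ i ∈ T, i < b) → ∀ j b i : NN N,
      (∀ i ∈ T, i < b) ∧ ¬ j ∈ T → P (T, j, b, i) x} ∈ U :=
    hU.forall_bdd (by fun_prop) fun T hT _ => hU.forall_nn (by fun_prop) fun j =>
      hU.forall_nn (by fun_prop) fun b => hU.forall_nn (by fun_prop) fun i => by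
        by_cases hD : (∀ i ∈ T, i < b) ∧ ¬ j ∈ T
        · exact hU.mono (h (T, j, b, i) inferInstance hD) (by fun_prop) fun x hx _ => hx
        · exact hU.all fun x hx => absurd hx hD
  exact hU.mono h2 (by fun_prop) fun x hx t ht hD =>
    hx t.1 inferInstance ⟨_, hD.1⟩ t.2.1 t.2.2.1 t.2.2.2 hD

end Vale.Agent.P129B
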