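import Vale.Agent.P129BF.Free
import Vale.Agent.P129BQ.Defs

/-!
# Free sequences in the form used for random forcing
-/

namespace Vale.Agent.P129B

universe v

variable {N : Type v} [ZM N] {K : Type*} [Coded N K] [Tot N K]

theorem hasFree {U : Set (Set K)} (hU : IUlt N U) : HasFree N K := by
  intro F hF
  have := hU.intl
  refine (hU.exists_free_gen (ι := Set (NN N) × NN N × NN N × NN N × NN N)
    (D := fun t => (∀ i ∈ t.1, i < t.2.2.1) ∧ ¬ t.2.1 ∈ t.1) (by fun_prop) (fun P hP h => ?_)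
    (j := fun t => t.2.1) (b := fun t => t.2.2.1) (by fun_prop) (by fun_prop)
    (e := fun t g => F (g '' t.1) t.2.2.2.1 t.2.2.2.2)
    (hF.comp (g := fun p : (Set (NN N) × NN N × NN N × NN N × NN N) × (NN N → K) =>
      (p.2 '' p.1.1, p.1.2.2.2.1, p.1.2.2.2.2)) (by fun_prop))
    fun t g g' _ hD _ _ h => by
      rw [Set.image_congr fun k hk => h k (hD.1 k hk) fun e => hD.2 (e ▸ hk)]).imp
    fun g h => ⟨h.1, fun T hT ⟨b, hb⟩ j hj m n =>
      (h.2 (T, j, b, m, n) inferInstance ⟨hb, hj⟩).symm⟩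
  have h2 : {x | ∀ T, Intl N T → (∃ b, ∀ i ∈ T, i < b) → ∀ j b m n : NN N,
      (∀ i ∈ T, i < b) ∧ ¬ j ∈ T → P (T, j, b, m, n) x} ∈ U :=
    hU.forall_bdd (by fun_prop) fun T hT _ => hU.forall_nn (by fun_prop) fun j =>
      hU.forall_nn (by fun_prop) fun b => hU.forall_nn (by fun_prop) fun m =>
        hU.forall_nn (by fun_prop) fun n => by
          by_cases hD : (∀ i ∈ T, i < b) ∧ ¬ j ∈ T
          · exact hU.mono (h (T, j, b, m, n) inferInstance hD) (by fun_prop) fun x hx _ => hx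
          · exact hU.all fun x hx => absurd hx hD
  exact hU.mono h2 (by fun_prop) fun x hx t ht hD =>
    hx t.1 inferInstance ⟨_, hD.1⟩ t.2.1 t.2.2.1 t.2.2.2.1 t.2.2.2.2 hD

end Vale.Agent.P129B
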