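import Vale.Agent.P129BF.L2b
import Vale.Agent.P129BB.Corr

/-!
# The Hilbertian case
-/

namespace Vale.Agent.P129B

universe v

variable {N : Type v} [ZM N] {R : Type*} [Field R] [LinearOrder R] [IsStrictOrderedRing R]
  [Coded N R] [RF N R] {K : Type*} [Field K] [Algebra R K] [Nm K R] [KA R K] [Coded N K]
  [KF N R K] {E : Type*} [AddCommGroup E] [Module K E] [Nm E R] [NA R K E] [Coded N E]
  [NS N R K E]

/-- Upper and lower Euclidean estimates give a dense set of points with fast decay. -/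
theorem l2d_dual [Cpl N R E] (φ : NN N → Dual N K E) [Intl N φ] {c : R} (hc : 0 < c)
    (hup : ∀ y n, isum (fun k => nm (φ k y) ^ 2) n ≤ nm y ^ 2)
    (hlow : ∀ n (a : NN N → K), Intl N a → c ^ 2 * isum (fun k => nm (a k) ^ 2) n ≤
      nm (isum (fun i => a i • φ i) n) ^ 2) (x : E) (ε : R) (hε : 0 < ε) :
    ∃ y, (∃ d : R, ∀ k, nm ((algebraMap R K (rc R k) • φ k) y) ≤ d) ∧ nm (x - y) < ε := by
  have hφ : DefF N (fun p : NN N × E => φ p.1 p.2) := by fun_prop
  refine corr_dual φ (fun n x r => 0 ≤ r ∧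
    ∀ m, isum (fun k => if n ≤ k then nm (φ k x) ^ 2 else 0) m ≤ r ^ 2) (by fun_prop) c⁻¹
    (fun x ε hε => ?_) (fun n n' x r h hn => ⟨h.1, fun m => ?_⟩) (fun n m x t η ht hη h => ?_)
    x ε hε
  · obtain ⟨n, hn⟩ := L2.tail_small (N := N) (f := fun k => nm (φ k x) ^ 2) (by fun_prop)
      (fun _ => sq_nonneg _) (hup x) (pow_pos hε 2)
    exact ⟨n, hε.le, hn⟩
  · refine (isum_le_isum (by fun_prop) (by fun_prop) fun k _ => ?_).trans (h.2 m)
    by_cases hk : n' ≤ k
    · rw [if_pos hk, if_pos (hn.trans hk)]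
    · rw [if_neg hk]
      split_ifs
      exacts [sq_nonneg _, le_rfl]
  · obtain ⟨z, h1, h2, h3⟩ := L2.step (φ := fun k x => φ k x) hφ
      (fun k x y => map_sub (φ k) x y) (fun k a x => (φ k).smul_arg a x) hc hup
      (fun n a ha s hs h4 => by
        have := ha.toIntl
        obtain ⟨x, hx, hx'⟩ := Dual.exists_lt_apply_le (isum (fun i => a i • φ i) n)
          (lt_of_pow_lt_pow_left₀ 2 (nm_nonneg _) (h4.trans_le (hlow n a this)))
        rw [Dual.isum_apply (by fun_prop)] at hx'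
        exact ⟨x, hx, hx'⟩) n m x ht hη h.2
    exact ⟨z, h1, h2, fun s hs hnm hS => ⟨by linarith [hS.1], h3 s hs hnm hS.2⟩⟩

end Vale.Agent.P129B
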