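import Vale.Agent.P129BZ.Cls
import Vale.Agent.P129B.Sum

/-!
# Approximation in the Euclidean norm: the real core
-/

set_option linter.unusedSectionVars false

namespace Vale.Agent.P129B

universe v

variable {N : Type v} [ZM N] {R : Type*} [Field R] [LinearOrder R] [IsStrictOrderedRing R]
  [Coded N R] [RF N R]

namespace L2

theorem isum_cut {β : Type*} [Coded N β] [AddCommMonoid β] [DefAdd N β] [DefZero N β]
    {f : NN N → β} (hf : DefF N f) {m n : NN N} (h : m ≤ n) :
    isum (fun k => if k < m then f k else 0) n = isum f m := by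
  rw [isum_of_le (by fun_prop) h fun i hi _ => if_neg (not_lt.2 hi)]
  exact isum_congr (by fun_prop) hf fun i hi => if_pos hi

theorem isum_lin {f g h : NN N → R} (hf : DefF N f) (hg : DefF N g) (hh : DefF N h) (x y z : R)
    (n : NN N) : isum (fun k => x * f k + y * g k + z * h k) n =
      x * isum f n + y * isum g n + z * isum h n := by
  rw [isum_add (by fun_prop) (by fun_prop), isum_add (by fun_prop) (by fun_prop),
    mul_isum _ hf, mul_isum _ hg, mul_isum _ hh]

/-- The Cauchy-Schwarz inequality, in the form without roots. -/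
theorem cs {a a' b b' : NN N → R} (ha : DefF N a) (ha' : DefF N a') (hb : DefF N b)
    (hb' : DefF N b') (n : NN N) :
    isum (fun k => a k * b k + a' k * b' k) n ^ 2 ≤
      isum (fun k => a k ^ 2 + a' k ^ 2) n * isum (fun k => b k ^ 2 + b' k ^ 2) n := by
  have h : ∀ x : R, 0 ≤ isum (fun k => a k ^ 2 + a' k ^ 2) n * (x * x) +
      (2 * isum (fun k => a k * b k + a' k * b' k) n) * x +
      isum (fun k => b k ^ 2 + b' k ^ 2) n := by
    intro x
    rw [isum_mul _ (by fun_prop), mul_isum _ (by fun_prop), isum_mul _ (by fun_prop),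
      ← isum_add (by fun_prop) (by fun_prop), ← isum_add (by fun_prop) (by fun_prop)]
    exact isum_nonneg (by fun_prop) fun k _ => by
      nlinarith [sq_nonneg (a k * x + b k), sq_nonneg (a' k * x + b' k)]
  have := discrim_le_zero h
  rw [discrim] at this
  linarith

/-- A point in the weak closure of a bounded convex set of sequences is in its closure. -/
theorem approx {Z : Type*} [Coded N Z] [Tot N Z] {B : Z → Prop} (hB : DefF N B)
    {p q : Z → NN N → R} (hp : DefF N (fun x : Z × NN N => p x.1 x.2))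
    (hq : DefF N (fun x : Z × NN N => q x.1 x.2)) {b c : NN N → R} (hb : DefF N b)
    (hc : DefF N c) {D : R} (hD : 0 < D)
    (h0 : ∃ z d, B z ∧ ∀ M, isum (fun k => (b k - p z k) ^ 2 + (c k - q z k) ^ 2) M ≤ d)
    (hconv : ∀ y z, B y → B z → ∀ l : R, 0 ≤ l → l ≤ 1 → ∃ w, B w ∧
      ∀ k, p w k = p y k + l * (p z k - p y k) ∧ q w k = q y k + l * (q z k - q y k))
    (hup : ∀ y z, B y → B z → ∀ M,
      isum (fun k => (p z k - p y k) ^ 2 + (q z k - q y k) ^ 2) M ≤ D)
    (hlow : ∀ α β : NN N → R, DefF N α → DefF N β → ∀ M, ∀ θ : R, 0 < θ → ∃ z, B z ∧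
      isum (fun k => α k * b k + β k * c k) M - θ ≤ isum (fun k => α k * p z k + β k * q z k) M)
    {ε : R} (hε : 0 < ε) :
    ∃ z, B z ∧ ∀ M, isum (fun k => (b k - p z k) ^ 2 + (c k - q z k) ^ 2) M ≤ ε := by
  have hp' : ∀ z, DefF N (p z) := fun z => hp.comp2 (F := p) (DefF.const z) DefF.id
  have hq' : ∀ z, DefF N (q z) := fun z => hq.comp2 (F := q) (DefF.const z) DefF.id
  let S : Set R := {d | ∃ z, B z ∧
    ∀ M, isum (fun k => (b k - p z k) ^ 2 + (c k - q z k) ^ 2) M ≤ d}
  have hS : Intl N S := intl_setOfT (by fun_prop)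
  obtain ⟨z₀, d₀, h0⟩ := h0
  obtain ⟨d, hd⟩ := RF.glb S hS ⟨d₀, z₀, h0⟩ ⟨0, fun e ⟨z, _, hz⟩ => by simpa using hz 0⟩
  have near : ∀ e, d < e → ∃ z, B z ∧
      ∀ M, isum (fun k => (b k - p z k) ^ 2 + (c k - q z k) ^ 2) M ≤ e := by
    intro e he
    obtain ⟨e', ⟨z, hz, hz'⟩, -, h2⟩ := hd.exists_between he
    exact ⟨z, hz, fun M => (hz' M).trans h2.le⟩
  refine near ε (lt_of_le_of_lt (not_lt.1 fun hd0 => ?_) hε)
  obtain ⟨l, hl0, hl1, hl2⟩ : ∃ l : R, 0 < l ∧ l ≤ 1 ∧ 2 * l * D ≤ d :=
    ⟨min 1 (d / (2 * D)), lt_min one_pos (by positivity), min_le_left _ _, by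
      have := (le_div_iff₀ (by positivity : 0 < 2 * D)).1 (min_le_right 1 (d / (2 * D)))
      linarith⟩
  obtain ⟨θ, hθ, hθ'⟩ : ∃ θ : R, 0 < θ ∧ 10 * θ = l * d :=
    ⟨l * d / 10, by positivity, by ring⟩
  obtain ⟨y, hy, hy'⟩ := near (d + θ) (by linarith)
  obtain ⟨M, hM⟩ : ∃ M, d - θ < isum (fun k => (b k - p y k) ^ 2 + (c k - q y k) ^ 2) M := by
    by_contra hc
    push Not at hc
    have := hd.1 (show d - θ ∈ S from ⟨y, hy, hc⟩)
    linarith
  have := hp' y
  have := hq' y
  obtain ⟨z, hz, hz'⟩ := hlow (fun k => b k - p y k) (fun k => c k - q y k) (by fun_prop)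
    (by fun_prop) M θ hθ
  obtain ⟨w, hw, hw'⟩ := hconv y z hy hz l hl0.le hl1
  have := hp' z
  have := hq' z
  have := hp' w
  have := hq' w
  have key : d - θ ∈ S := by
    refine ⟨w, hw, fun L₀ => ?_⟩
    refine (isum_mono (by fun_prop) (le_max_left L₀ M) fun _ _ => by positivity).trans ?_
    have hL := le_max_right L₀ M
    generalize max L₀ M = L at hL
    have h1 := isum_le_isum (f := fun k => (b k - p w k) ^ 2 + (c k - q w k) ^ 2)
      (g := fun k => 2 * ((b k - p y k) ^ 2 + (c k - q y k) ^ 2) +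
        2 * l ^ 2 * ((p z k - p y k) ^ 2 + (q z k - q y k) ^ 2) +
        1 * (if k < M then -(1 + 2 * l) * ((b k - p y k) ^ 2 + (c k - q y k) ^ 2) +
          2 * l * ((b k - p y k) * b k + (c k - q y k) * c k) +
          -(2 * l) * ((b k - p y k) * p z k + (c k - q y k) * q z k) else 0))
      (by fun_prop) (by fun_prop) (n := L) fun k _ => by
        rw [(hw' k).1, (hw' k).2]
        split_ifs
        · nlinarith [sq_nonneg (l * (p z k - p y k)), sq_nonneg (l * (q z k - q y k))]
        · nlinarith [sq_nonneg (b k - p y k + l * (p z k - p y k)),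
            sq_nonneg (c k - q y k + l * (q z k - q y k))]
    rw [isum_lin (by fun_prop) (by fun_prop) (by fun_prop), isum_cut (by fun_prop) hL,
      isum_lin (by fun_prop) (by fun_prop) (by fun_prop)] at h1
    have h2 := hy' L
    have h3 := hup y z hy hz L
    have h4 := mul_le_mul_of_nonneg_left h3 (by positivity : 0 ≤ 2 * l ^ 2)
    have h5 := mul_le_mul_of_nonneg_left hz' hl0.le
    have h6 := mul_le_mul_of_nonneg_left hM.le hl0.le
    have h7 := mul_le_mul_of_nonneg_left hl2 hl0.le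
    have h8 := mul_le_mul_of_nonneg_left hl1 hθ.le
    nlinarith
  have := hd.1 key
  linarith

end L2

end Vale.Agent.P129B
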