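import Vale.Agent.P129BF.L2a
import Vale.Agent.P129BZ.Scal

/-!
# The Hilbertian case: approximate preimages and the correction step
-/

set_option linter.unusedSectionVars false

namespace Vale.Agent.P129B

universe v

variable {N : Type v} [ZM N] {R : Type*} [Field R] [LinearOrder R] [IsStrictOrderedRing R]
  [Coded N R] [RF N R] {K : Type*} [Field K] [Algebra R K] [Nm K R] [KA R K] [Coded N K]
  [KF N R K] {E : Type*} [AddCommGroup E] [Module K E] [Nm E R] [NA R K E] [Coded N E]
  [NS N R K E]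

namespace L2

variable {φ : NN N → E → K} {c : R}

theorem preimage (hφ : DefF N (fun p : NN N × E => φ p.1 p.2))
    (hsub : ∀ k x y, φ k (x - y) = φ k x - φ k y)
    (hsmul : ∀ k (a : K) x, φ k (a • x) = a * φ k x) (hc : 0 < c)
    (hup : ∀ y n, isum (fun k => nm (φ k y) ^ 2) n ≤ nm y ^ 2)
    (hlow : ∀ n (a : NN N → K), DefF N a → ∀ s : R, 0 ≤ s →
      s ^ 2 < c ^ 2 * isum (fun k => nm (a k) ^ 2) n →
      ∃ x : E, nm x ≤ 1 ∧ s < nm (isum (fun k => a k * φ k x) n))
    {b : NN N → K} (hb : DefF N b) {t : R} (ht : 0 < t)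
    (hbt : ∀ M, isum (fun k => nm (b k) ^ 2) M ≤ t ^ 2) {ε : R} (hε : 0 < ε) :
    ∃ z : E, nm z ≤ t / c ∧ ∀ M, isum (fun k => nm (b k - φ k z) ^ 2) M ≤ ε := by
  have h0 : ∀ k, φ k 0 = 0 := fun k => by
    have := hsub k 0 0
    rwa [sub_self, sub_self] at this
  have hr : 0 < t / c := by positivity
  have hφ' : ∀ x, DefF N (fun k => φ k x) := fun x => hφ.comp2 (F := φ) DefF.id (DefF.const x)
  have := approx (N := N) (Z := E) (B := fun z => nm z ≤ t / c) (by fun_prop)
    (p := fun z k => KA.re (φ k z)) (q := fun z k => KA.im (φ k z)) (by fun_prop) (by fun_prop)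
    (b := fun k => KA.re (b k)) (c := fun k => KA.im (b k)) (by fun_prop) (by fun_prop)
    (D := (2 * (t / c)) ^ 2) (by positivity)
    ⟨0, t ^ 2, by simpa using hr.le, fun M => by
      simpa only [h0, map_zero, sub_zero, KA.nm_sq] using hbt M⟩ ?_ ?_ ?_ hε
  · simpa only [KA.nm_sq, map_sub] using this
  · intro y z hy hz l hl0 hl1
    refine ⟨y - algebraMap R K l • (y - z), ?_, fun k => ?_⟩
    · have e : y - algebraMap R K l • (y - z) =
          algebraMap R K (1 - l) • y + algebraMap R K l • z := by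
        rw [map_sub, map_one, sub_smul, one_smul, smul_sub]; abel
      rw [e]
      refine (nm_add_le _ _).trans ?_
      rw [nm_ofR_smul_of_nonneg (sub_nonneg.2 hl1), nm_ofR_smul_of_nonneg hl0]
      nlinarith
    · simp only [hsub, hsmul, map_sub, KA.re_ofR_mul, KA.im_ofR_mul]
      constructor <;> ring
  · intro y z hy hz M
    have h1 := hup (z - y) M
    simp only [KA.nm_sq, hsub, map_sub] at h1
    exact h1.trans (pow_le_pow_left₀ (nm_nonneg _) (by linarith [nm_sub_le z y]) 2)
  · intro α β hα hβ M θ hθ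
    let u : NN N → K := fun k => algebraMap R K (α k) + algebraMap R K (β k) * KA.I
    have hu : DefF N u := by fun_prop
    have e : ∀ k (w : K), α k * KA.re w + β k * KA.im w =
        KA.re (u k) * KA.re w + KA.im (u k) * KA.im w := by
      intro k w
      simp only [u, map_add, KA.re_ofR, KA.im_ofR, KA.re_ofR_mul, KA.im_ofR_mul, KA.re_I]
      linear_combination (-β k) * KA.im_mul_im_I w
    simp only [e]
    have h1 := cs (N := N) (a := fun k => KA.re (u k)) (a' := fun k => KA.im (u k))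
      (b := fun k => KA.re (b k)) (b' := fun k => KA.im (b k)) (by fun_prop) (by fun_prop)
      (by fun_prop) (by fun_prop) M
    simp only [← KA.nm_sq] at h1
    generalize isum (fun k => KA.re (u k) * KA.re (b k) + KA.im (u k) * KA.im (b k)) M = A at h1 ⊢
    rcases le_or_gt (A - θ) 0 with hA | hA
    · exact ⟨0, by simpa using hr.le, by simpa [h0] using hA⟩
    have hP : 0 ≤ isum (fun k => nm (u k) ^ 2) M :=
      isum_nonneg (by fun_prop) fun _ _ => sq_nonneg _
    obtain ⟨x, hx, hx'⟩ := hlow M (fun k => KA.conj (u k)) (by fun_prop) ((A - θ) / (t / c))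
      (by positivity) (by
        simp only [KA.nm_conj]
        have h2 := h1.trans (mul_le_mul_of_nonneg_left (hbt M) hP)
        rw [div_pow, div_lt_iff₀ (by positivity), div_pow, mul_comm (c ^ 2), mul_assoc,
          mul_div_cancel₀ _ (by positivity)]
        nlinarith)
    have := hφ' x
    obtain ⟨r, hr1, hr2⟩ := KA.exists_rot (isum (fun k => KA.conj (u k) * φ k x) M)
    refine ⟨algebraMap R K (t / c) • r • x, ?_, ?_⟩
    · rw [nm_ofR_smul_of_nonneg hr.le, nm_smul, hr1, one_mul]
      exact mul_le_of_le_one_right hr.le hx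
    · have h2 : isum (fun k => KA.re (u k) * KA.re (φ k (algebraMap R K (t / c) • r • x)) +
          KA.im (u k) * KA.im (φ k (algebraMap R K (t / c) • r • x))) M =
          KA.re (algebraMap R K (t / c) * (r * isum (fun k => KA.conj (u k) * φ k x) M)) := by
        rw [mul_isum _ (by fun_prop), mul_isum _ (by fun_prop),
          map_isum KA.re (by fun_prop) (by fun_prop)]
        congr 1
        funext k
        rw [← KA.re_conj_mul, hsmul, hsmul]
        congr 1
        ring
      rw [h2, hr2, KA.re_ofR_mul, KA.re_ofR]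
      rw [div_lt_iff₀ hr] at hx'
      linarith

/-- Tails of square summable sequences are small. -/
theorem tail_small {f : NN N → R} (hf : DefF N f) (h0 : ∀ k, 0 ≤ f k) {C : R}
    (hC : ∀ n, isum f n ≤ C) {ε : R} (hε : 0 < ε) :
    ∃ n, ∀ m, isum (fun k => if n ≤ k then f k else 0) m ≤ ε := by
  have h1 : Intl N {s : R | ∃ n, isum f n = s} := intl_setOfT (by fun_prop)
  obtain ⟨s, hs⟩ := RF.lub _ h1 ⟨_, 0, rfl⟩ ⟨C, by rintro _ ⟨n, rfl⟩; exact hC n⟩
  obtain ⟨_, ⟨n, rfl⟩, h2, -⟩ := hs.exists_between (sub_lt_self s hε)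
  refine ⟨n, fun m => (isum_mono (by fun_prop) (le_max_left m n) fun k _ => by
    split_ifs; exacts [h0 k, le_rfl]).trans ?_⟩
  have h3 : isum f (max m n) = isum (fun k => (if n ≤ k then f k else 0) +
      if k < n then f k else 0) (max m n) := by
    congr 1
    funext k
    by_cases h : n ≤ k
    · rw [if_pos h, if_neg (not_lt.2 h), add_zero]
    · rw [if_neg h, if_pos (not_le.1 h), zero_add]
  rw [isum_add (by fun_prop) (by fun_prop), isum_cut hf (le_max_right m n)] at h3
  have h4 : isum f (max m n) ≤ s := hs.1 ⟨_, rfl⟩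
  linarith

/-- The correction step. -/
theorem step (hφ : DefF N (fun p : NN N × E => φ p.1 p.2))
    (hsub : ∀ k x y, φ k (x - y) = φ k x - φ k y)
    (hsmul : ∀ k (a : K) x, φ k (a • x) = a * φ k x) (hc : 0 < c)
    (hup : ∀ y n, isum (fun k => nm (φ k y) ^ 2) n ≤ nm y ^ 2)
    (hlow : ∀ n (a : NN N → K), DefF N a → ∀ s : R, 0 ≤ s →
      s ^ 2 < c ^ 2 * isum (fun k => nm (a k) ^ 2) n →
      ∃ x : E, nm x ≤ 1 ∧ s < nm (isum (fun k => a k * φ k x) n))
    (n m : NN N) (x : E) {t η : R} (ht : 0 < t) (hη : 0 < η)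
    (hT : ∀ M, isum (fun k => if n ≤ k then nm (φ k x) ^ 2 else 0) M ≤ t ^ 2) :
    ∃ z : E, nm z ≤ c⁻¹ * t ∧ (∀ k, k < m → nm (φ k z - if n ≤ k then φ k x else 0) ≤ η) ∧
      ∀ s, η ≤ s → n ≤ m →
        (∀ M, isum (fun k => if m ≤ k then nm (φ k x) ^ 2 else 0) M ≤ s ^ 2) →
        ∀ M, isum (fun k => if m ≤ k then nm (φ k (x - z)) ^ 2 else 0) M ≤ (2 * s) ^ 2 := by
  have hφ' : ∀ x, DefF N (fun k => φ k x) := fun x => hφ.comp2 (F := φ) DefF.id (DefF.const x)
  have := hφ' x
  obtain ⟨z, h1, h2⟩ := preimage hφ hsub hsmul hc hup hlow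
    (b := fun k => if k < m then (if n ≤ k then φ k x else 0) else 0) (by fun_prop) ht
    (fun M => (isum_le_isum (by fun_prop) (by fun_prop) fun k _ => by
      split_ifs <;> simp [sq_nonneg]).trans (hT M)) (pow_pos hη 2)
  have := hφ' z
  have := hφ' (x - z)
  refine ⟨z, by rwa [← div_eq_inv_mul], fun k hk => ?_, fun s hs _ hS M => ?_⟩
  · have h3 := (le_isum (f := fun k => nm ((if k < m then (if n ≤ k then φ k x else 0) else 0) -
      φ k z) ^ 2) (by fun_prop) (NN.lt_add_one k) fun _ _ => sq_nonneg _).trans (h2 (k + 1))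
    rw [if_pos hk, nm_sub_rev] at h3
    exact (pow_le_pow_iff_left₀ (nm_nonneg _) hη.le two_ne_zero).1 h3
  · have h3 := isum_le_isum (f := fun k => if m ≤ k then nm (φ k (x - z)) ^ 2 else 0)
      (g := fun k => 2 * (if m ≤ k then nm (φ k x) ^ 2 else 0) +
        2 * nm ((if k < m then (if n ≤ k then φ k x else 0) else 0) - φ k z) ^ 2)
      (by fun_prop) (by fun_prop) (n := M) fun k _ => by
        by_cases hk : m ≤ k
        · rw [if_pos hk, if_pos hk, if_neg (not_lt.2 hk), zero_sub, nm_neg, hsub]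
          have h4 := pow_le_pow_left₀ (nm_nonneg _) (nm_sub_le (φ k x) (φ k z)) 2
          nlinarith [sq_nonneg (nm (φ k x) - nm (φ k z))]
        · rw [if_neg hk, if_neg hk]
          positivity
    rw [isum_add (by fun_prop) (by fun_prop), ← mul_isum _ (by fun_prop),
      ← mul_isum _ (by fun_prop)] at h3
    have h4 := pow_le_pow_left₀ hη.le hs 2
    have h5 := hS M
    have h6 := h2 M
    linarith

end L2

end Vale.Agent.P129B
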