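import Vale.Agent.P129B.Nat0

/-!
# Internal countably complete free ultrafilters
-/

set_option linter.unusedSectionVars false

namespace Vale.Agent.P129B

universe v

variable {N : Type v} [ZM N] {K : Type*} [Coded N K] [Tot N K]

variable (N) in
/-- `U` is an internal, countably complete, nonprincipal ultrafilter on `K`. -/
structure IUlt (U : Set (Set K)) : Prop where
  intl : Intl N U
  up : ∀ A ∈ U, ∀ B : Set K, Intl N B → A ⊆ B → B ∈ U
  inter : ∀ A ∈ U, ∀ B ∈ U, A ∩ B ∈ U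
  iInter : ∀ A : NN N → Set K, Intl N A → (∀ n, A n ∈ U) → (⋂ n, A n) ∈ U
  ultra : ∀ A : Set K, Intl N A → A ∈ U ∨ Aᶜ ∈ U
  empty : ∅ ∉ U
  free : ∀ x : K, {x} ∉ U

namespace IUlt

variable {U : Set (Set K)} (hU : IUlt N U)
include hU

theorem univ : Set.univ ∈ U := by
  rcases hU.ultra ∅ inferInstance with h | h
  · exact absurd h hU.empty
  · simpa using h

theorem nonempty {A : Set K} (h : A ∈ U) : A.Nonempty :=
  Set.nonempty_iff_ne_empty.2 fun e => hU.empty (e ▸ h)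

theorem mono {P Q : K → Prop} (h : {x | P x} ∈ U) (hQ : DefF N Q) (H : ∀ x, P x → Q x) :
    {x | Q x} ∈ U := hU.up _ h _ (intl_setOfT hQ) H

theorem all {Q : K → Prop} (H : ∀ x, Q x) : {x | Q x} ∈ U := by
  rw [Set.eq_univ_of_forall (s := {x | Q x}) H]; exact hU.univ

theorem not {P : K → Prop} (hP : DefF N P) (h : {x | P x} ∉ U) : {x | ¬ P x} ∈ U :=
  (hU.ultra _ (intl_setOfT hP)).resolve_left h

theorem and {P Q : K → Prop} (h : {x | P x} ∈ U) (k : {x | Q x} ∈ U) :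
    {x | P x ∧ Q x} ∈ U := hU.inter _ h _ k

theorem forall_nn {P : NN N → K → Prop} (hP : DefF N (fun p : NN N × K => P p.1 p.2))
    (h : ∀ n, {x | P n x} ∈ U) : {x | ∀ n, P n x} ∈ U := by
  rw [Set.ofPred_forall]
  exact hU.iInter _ (DefF.setOfT hP).toIntl h

/-- A large set has two members. -/
theorem two {A : Set K} (h : A ∈ U) : ∃ x ∈ A, ∃ y ∈ A, x ≠ y := by
  obtain ⟨x, hx⟩ := hU.nonempty h
  have h1 : {y | ¬ y = x} ∈ U := hU.not (by fun_prop) (hU.free x)
  obtain ⟨y, hy, hy'⟩ := hU.nonempty (hU.inter _ h _ h1)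
  exact ⟨y, hy, x, hx, hy'⟩

end IUlt

end Vale.Agent.P129B
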